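import Vale.Agent.P204.Leaf.Main

/-! An almost complex structure on the four-torus preserving a constant plane field has a
compatible symplectic form. -/

namespace Vale.Agent.Results.P204.TorusInvariantPlanes

open scoped ContDiff Matrix
open Vale.Agent.P204

theorem result (J : (Fin 4 → ℝ) → Matrix (Fin 4) (Fin 4) ℝ)
    (hsm : ∀ a b, ContDiff ℝ ∞ fun x => J x a b) (hJ : ∀ x, J x * J x = -1)
    (hper : ∀ x k, J (x + Pi.single k 1) = J x)
    (V : Submodule ℝ (Fin 4 → ℝ)) (hV : Module.finrank ℝ V = 2)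
    (hinv : ∀ x, ∀ v ∈ V, J x *ᵥ v ∈ V) :
    ∃ W : (Fin 4 → ℝ) → Matrix (Fin 4) (Fin 4) ℝ, IsClosedForm W ∧
      (∀ x v, v ≠ 0 → 0 < v ⬝ᵥ W x *ᵥ (J x *ᵥ v)) ∧ ∀ x, (J x)ᵀ * W x * J x = W x :=
  Leaf.planeField J hsm hJ hper V hV hinv

end Vale.Agent.Results.P204.TorusInvariantPlanes
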