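import Vale.Agent.P204.Inv.Main
import Vale.Agent.P204.Inv.Kernel
import Vale.Agent.P204.Inv.Average
import Vale.Agent.P204.Inv.RightInverse
import Vale.Agent.P204.Inv.Functional
import Vale.Agent.P204.Inv.Limit
import Vale.Agent.P204.Inv.CurOfFun

/-! A tamed almost complex structure on the four-torus depending on two coordinates has a
compatible symplectic form. -/

namespace Vale.Agent.Results.P204.TorusTwoVariables

open scoped ContDiff Matrix
open Vale.Agent.P204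

theorem result (J : (Fin 4 → ℝ) → Matrix (Fin 4) (Fin 4) ℝ)
    (hsm : ∀ a b, ContDiff ℝ ∞ fun x => J x a b) (hJ : ∀ x, J x * J x = -1)
    (hper : ∀ x k, J (x + Pi.single k 1) = J x)
    (hdep : ∀ x y, x 0 = y 0 → x 1 = y 1 → J x = J y)
    (W : (Fin 4 → ℝ) → Matrix (Fin 4) (Fin 4) ℝ) (hW : IsClosedForm W)
    (htame : ∀ x v, v ≠ 0 → 0 < v ⬝ᵥ W x *ᵥ (J x *ᵥ v)) :
    ∃ W' : (Fin 4 → ℝ) → Matrix (Fin 4) (Fin 4) ℝ, IsClosedForm W' ∧
      (∀ x v, v ≠ 0 → 0 < v ⬝ᵥ W' x *ᵥ (J x *ᵥ v)) ∧ ∀ x, (J x)ᵀ * W' x * J x = W' x :=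
  Inv.tamed_of_exists J hsm hJ hper hdep W hW htame fun S hS => by
    by_contra hK
    obtain ⟨X⟩ := Inv.exists_fun S (Inv.rightInverseSpec S) hK
    obtain ⟨C, hC⟩ := Inv.cur_of_fun X
    obtain ⟨w, hw, hpos⟩ := Inv.averageSpec S W hW hS
    exact X.taming_ne hw hpos (hC (Inv.phi_zero Inv.kernelSpec C) w hw.1)

end Vale.Agent.Results.P204.TorusTwoVariables
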